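import Mathlib
import Vale.Agent.Lib.P330.Circuit

/-!
P330 (PCP for PPAD).  For `δ ≥ 1/2` acceptable assignments are trivial to find, for every `ε ≥ 0`:
every gate of a generalized circuit is exactly satisfied by one of two explicit assignments.
-/

namespace Vale.Agent.Results.P330.HalfEasy

open Vale.Agent.Lib.P330

/-- One synchronous round of the local rule that only looks at Constant and Not gates: the output of
a Constant gate gets its parameter, the output of a Not gate gets `1 - q` as soon as its input has
got the value `q`; all other nodes stay undetermined. -/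
def step {V : Type} (G : GCircuit V) (s : V → Option ℚ) (z : V) : Option ℚ :=
  match G.gate z with
  | some (Gate.const α) => some α
  | some (Gate.neg a) => (s a).map (fun q => 1 - q)
  | _ => none

/-- The second assignment: run `card V` rounds of `step` from the everywhere undetermined state;
undetermined nodes get the value `1/2`. -/
def chainAsg {V : Type} [Fintype V] (G : GCircuit V) (v : V) : ℚ :=
  ((step G)^[Fintype.card V] (fun _ => none) v).getD (1 / 2)

/-- the number of gates of the circuit -/
def numGates {V : Type} [Fintype V] (G : GCircuit V) : ℕ :=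
  (Finset.univ.filter (fun z => (G.gate z).isSome)).card

open Classical in
/-- the number of gates that are `ε`-satisfied by the assignment `x` -/
noncomputable def numSat {V : Type} [Fintype V] (G : GCircuit V) (ε : ℝ) (x : V → ℝ) : ℕ :=
  (Finset.univ.filter (fun z => ∃ g, G.gate z = some g ∧ g.Sat ε x z)).card

lemma step_mono {V : Type} (G : GCircuit V) (s t : V → Option ℚ) (h : FlatLe s t) :
    FlatLe (step G s) (step G t) := by
  intro z b hz
  unfold step at hz ⊢
  rcases hg : G.gate z with _ | g
  · rw [hg] at hz; simp at hz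
  · rw [hg] at hz
    cases g with
    | const α => exact hz
    | neg a =>
      simp only [Option.map_eq_some_iff] at hz ⊢
      obtain ⟨q, hq, hb⟩ := hz
      exact ⟨q, h a q hq, hb⟩
    | scale α a => simp at hz
    | copy a => simp at hz
    | add a b => simp at hz
    | sub a b => simp at hz
    | less a c => simp at hz
    | disj a c => simp at hz
    | conj a c => simp at hz

lemma range_iter {V : Type} (G : GCircuit V) (k : ℕ) :
    ∀ v q, (step G)^[k] (fun _ => none) v = some q → 0 ≤ q ∧ q ≤ 1 := by
  induction k with
  | zero => intro v q h; simp at h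
  | succ k ih =>
    intro v q h
    rw [Function.iterate_succ_apply'] at h
    unfold step at h
    rcases hg : G.gate v with _ | g
    · rw [hg] at h; simp at h
    · rw [hg] at h
      cases g with
      | const α =>
        simp only [Option.some.injEq] at h
        rw [← h]; exact G.const_param v α hg
      | neg a =>
        simp only [Option.map_eq_some_iff] at h
        obtain ⟨p, hp, hq⟩ := h
        have := ih a p hp
        rw [← hq]; constructor <;> linarith [this.1, this.2]
      | scale α a => simp at h
      | copy a => simp at h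
      | add a b => simp at h
      | sub a b => simp at h
      | less a c => simp at h
      | disj a c => simp at h
      | conj a c => simp at h

lemma chain_range {V : Type} [Fintype V] (G : GCircuit V) (v : V) :
    0 ≤ chainAsg G v ∧ chainAsg G v ≤ 1 := by
  unfold chainAsg
  rcases h : (step G)^[Fintype.card V] (fun _ => none) v with _ | q
  · simp; norm_num
  · simpa using range_iter G _ v q h

/-- Constant and Not gates are exactly satisfied by `chainAsg`. -/
lemma chain_sat {V : Type} [Fintype V] (G : GCircuit V) (ε : ℝ) (hε : 0 ≤ ε) (z : V) :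
    (∀ α, G.gate z = some (Gate.const α) →
      (Gate.const α : Gate V).Sat ε (fun v => ((chainAsg G v : ℚ) : ℝ)) z) ∧
    (∀ a, G.gate z = some (Gate.neg a) →
      (Gate.neg a : Gate V).Sat ε (fun v => ((chainAsg G v : ℚ) : ℝ)) z) := by
  have hfix := iterate_fixed (step G) (step_mono G)
  set s := (step G)^[Fintype.card V] (fun _ => none) with hs
  have hz : s z = step G s z := (congrFun hfix z).symm
  constructor
  · intro α hg
    unfold step at hz
    rw [hg] at hz
    have : chainAsg G z = α := by unfold chainAsg; rw [← hs, hz]; simp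
    simp only [Gate.Sat, this, sub_self, abs_zero]
    exact hε
  · intro a hg
    unfold step at hz
    rw [hg] at hz
    have : chainAsg G z = 1 - chainAsg G a := by
      unfold chainAsg
      rw [← hs, hz]
      rcases hsa : s a with _ | q
      · simp [hsa]; norm_num
      · simp [hsa]
    have e : ((chainAsg G z : ℚ) : ℝ) = 1 - ((chainAsg G a : ℚ) : ℝ) := by
      rw [this]; push_cast; ring
    simp only [Gate.Sat, e]
    constructor <;> intro h <;> linarith

/-- All gates other than Constant and Not gates are exactly satisfied by the zero assignment. -/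
lemma zero_sat {V : Type} (ε : ℝ) (hε : 0 ≤ ε) (z : V) (g : Gate V)
    (h1 : ∀ α, g ≠ Gate.const α) (h2 : ∀ a, g ≠ Gate.neg a) :
    g.Sat ε (fun _ => (0 : ℝ)) z := by
  cases g with
  | const α => exact absurd rfl (h1 α)
  | neg a => exact absurd rfl (h2 a)
  | scale α a => simpa [Gate.Sat] using hε
  | copy a => simpa [Gate.Sat] using hε
  | add a b => simpa [Gate.Sat] using hε
  | sub a b => simpa [Gate.Sat] using hε
  | less a c =>
    simp only [Gate.Sat]
    constructor <;> intro h <;> linarith
  | disj a c =>
    simp only [Gate.Sat]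
    refine ⟨fun h => ?_, fun _ => hε⟩
    rcases h with h | h <;> exact h
  | conj a c =>
    simp only [Gate.Sat]
    exact ⟨fun h => h.1, fun _ => hε⟩

/-- the nodes carrying a Constant or a Not gate -/
def isCN {V : Type} (G : GCircuit V) (z : V) : Bool :=
  match G.gate z with
  | some (Gate.const _) => true
  | some (Gate.neg _) => true
  | _ => false

/-- For every generalized circuit, one of the two explicit assignments `0` and `chainAsg G`
(values in `[0,1]`) satisfies, simultaneously for all `ε ≥ 0`, at least half of the gates; hence at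
least `(1 - δ) |T|` gates for every `δ ≥ 1/2`.  Moreover every single gate is `ε`-satisfied by one of
the two assignments. -/
theorem result {V : Type} [Fintype V] (G : GCircuit V) :
    (∀ v, 0 ≤ chainAsg G v ∧ chainAsg G v ≤ 1) ∧
    (∀ ε : ℝ, 0 ≤ ε → ∀ z g, G.gate z = some g →
      g.Sat ε (fun _ => (0 : ℝ)) z ∨ g.Sat ε (fun v => ((chainAsg G v : ℚ) : ℝ)) z) ∧
    ∃ x : V → ℚ, (x = (fun _ => 0) ∨ x = chainAsg G) ∧ (∀ v, 0 ≤ x v ∧ x v ≤ 1) ∧
      ∀ ε : ℝ, 0 ≤ ε →
        numGates G ≤ 2 * numSat G ε (fun v => ((x v : ℚ) : ℝ)) ∧
        ∀ δ : ℝ, 1 / 2 ≤ δ →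
          (1 - δ) * (numGates G : ℝ) ≤ (numSat G ε (fun v => ((x v : ℚ) : ℝ)) : ℝ) := by
  classical
  -- gate by gate
  have hCN : ∀ ε : ℝ, 0 ≤ ε → ∀ z g, G.gate z = some g → isCN G z = true →
      g.Sat ε (fun v => ((chainAsg G v : ℚ) : ℝ)) z := by
    intro ε hε z g hg hc
    unfold isCN at hc
    rw [hg] at hc
    cases g with
    | const α => exact (chain_sat G ε hε z).1 α hg
    | neg a => exact (chain_sat G ε hε z).2 a hg
    | scale α a => simp at hc
    | copy a => simp at hc
    | add a b => simp at hc
    | sub a b => simp at hc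
    | less a c => simp at hc
    | disj a c => simp at hc
    | conj a c => simp at hc
  have hO : ∀ ε : ℝ, 0 ≤ ε → ∀ z g, G.gate z = some g → isCN G z = false →
      g.Sat ε (fun _ => (0 : ℝ)) z := by
    intro ε hε z g hg hc
    unfold isCN at hc
    rw [hg] at hc
    apply zero_sat ε hε z g
    · intro α h; rw [h] at hc; simp at hc
    · intro a h; rw [h] at hc; simp at hc
  refine ⟨chain_range G, ?_, ?_⟩
  · intro ε hε z g hg
    rcases hc : isCN G z with _ | _
    · exact Or.inl (hO ε hε z g hg hc)
    · exact Or.inr (hCN ε hε z g hg hc)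
  -- counting
  set A := Finset.univ.filter (fun z => (G.gate z).isSome ∧ isCN G z = true) with hA
  set B := Finset.univ.filter (fun z => (G.gate z).isSome ∧ isCN G z = false) with hB
  have hsum : numGates G = A.card + B.card := by
    unfold numGates
    rw [hA, hB, ← Finset.card_union_of_disjoint]
    · congr 1
      ext z
      simp only [Finset.mem_filter, Finset.mem_univ, true_and, Finset.mem_union]
      constructor
      · intro h
        rcases hc : isCN G z with _ | _
        · exact Or.inr ⟨h, rfl⟩
        · exact Or.inl ⟨h, rfl⟩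
      · rintro (h | h) <;> exact h.1
    · rw [Finset.disjoint_left]
      intro z h1 h2
      simp only [Finset.mem_filter, Finset.mem_univ, true_and] at h1 h2
      rw [h1.2] at h2
      exact absurd h2.2 (by simp)
  have hAle : ∀ ε : ℝ, 0 ≤ ε → A.card ≤ numSat G ε (fun v => ((chainAsg G v : ℚ) : ℝ)) := by
    intro ε hε
    unfold numSat
    apply Finset.card_le_card
    intro z hz
    simp only [hA, Finset.mem_filter, Finset.mem_univ, true_and] at hz ⊢
    obtain ⟨g, hg⟩ := Option.isSome_iff_exists.mp hz.1
    exact ⟨g, hg, hCN ε hε z g hg hz.2⟩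
  have hBle : ∀ ε : ℝ, 0 ≤ ε → B.card ≤ numSat G ε (fun _ => (0 : ℝ)) := by
    intro ε hε
    unfold numSat
    apply Finset.card_le_card
    intro z hz
    simp only [hB, Finset.mem_filter, Finset.mem_univ, true_and] at hz ⊢
    obtain ⟨g, hg⟩ := Option.isSome_iff_exists.mp hz.1
    exact ⟨g, hg, hO ε hε z g hg hz.2⟩
  have fin : ∀ (N S : ℕ), N ≤ 2 * S → ∀ δ : ℝ, 1 / 2 ≤ δ → (1 - δ) * (N : ℝ) ≤ (S : ℝ) := by
    intro N S h δ hδ
    have h' : (N : ℝ) ≤ 2 * (S : ℝ) := by exact_mod_cast h
    have hN : (0 : ℝ) ≤ N := Nat.cast_nonneg N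
    nlinarith
  rcases le_total B.card A.card with h | h
  · refine ⟨chainAsg G, Or.inr rfl, chain_range G, ?_⟩
    intro ε hε
    have h1 : numGates G ≤ 2 * numSat G ε (fun v => ((chainAsg G v : ℚ) : ℝ)) := by
      have := hAle ε hε
      omega
    exact ⟨h1, fin _ _ h1⟩
  · refine ⟨fun _ => 0, Or.inl rfl, fun _ => ⟨le_rfl, zero_le_one⟩, ?_⟩
    intro ε hε
    have h1 : numGates G ≤ 2 * numSat G ε (fun _ => (((0 : ℚ) : ℚ) : ℝ)) := by
      have := hBle ε hε
      simp only [Rat.cast_zero]
      omega
    exact ⟨h1, fin _ _ h1⟩

end Vale.Agent.Results.P330.HalfEasy
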