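import Mathlib
import Vale.Agent.Lib.P330.Circuit

namespace Vale.Agent.Results.P330.QuarterEasy

open Vale.Agent.Lib.P330

/-- three-valued negation (`none` = undetermined, `some false` = low, `some true` = high) -/
def kNot : Option Bool → Option Bool
  | some b => some (!b)
  | none => none

/-- three-valued (Kleene) disjunction -/
def kOr : Option Bool → Option Bool → Option Bool
  | some true, _ => some true
  | _, some true => some true
  | some false, some false => some false
  | _, _ => none

/-- three-valued (Kleene) conjunction -/
def kAnd : Option Bool → Option Bool → Option Bool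
  | some false, _ => some false
  | _, some false => some false
  | some true, some true => some true
  | _, _ => none

/-- three-valued comparison: determined only when one input is low and the other one high -/
def kLess : Option Bool → Option Bool → Option Bool
  | some false, some true => some true
  | some true, some false => some false
  | _, _ => none

/-- One synchronous round of the local update rule: the new state of node `z` is read off from the
gate with output `z` and the current states of its input nodes. -/
def step {V : Type} (G : GCircuit V) (s : V → Option Bool) (z : V) : Option Bool :=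
  match G.gate z with
  | none => none
  | some (Gate.const α) => if α < 1 / 4 then some false else if 3 / 4 < α then some true else none
  | some (Gate.scale α a) => if α ≤ 2 / 3 then some false else s a
  | some (Gate.copy _) => none
  | some (Gate.add _ _) => some true
  | some (Gate.sub _ _) => some false
  | some (Gate.less a b) => kLess (s a) (s b)
  | some (Gate.neg a) => kNot (s a)
  | some (Gate.disj a b) => kOr (s a) (s b)
  | some (Gate.conj a b) => kAnd (s a) (s b)

/-- the rational value attached to a state: low = 1/4, undetermined = 1/2, high = 3/4 -/
def val : Option Bool → ℚ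
  | none => 1 / 2
  | some false => 1 / 4
  | some true => 3 / 4

/-- The explicit assignment: run `card V` rounds of `step` from the everywhere undetermined state
and read off the values. -/
def kleene {V : Type} [Fintype V] (G : GCircuit V) (v : V) : ℚ :=
  val ((step G)^[Fintype.card V] (fun _ => none) v)

def le3 (x y : Option Bool) : Prop := ∀ b, x = some b → y = some b

instance (x y : Option Bool) : Decidable (le3 x y) := by unfold le3; infer_instance

lemma kNot_mono : ∀ x x', le3 x x' → le3 (kNot x) (kNot x') := by decide
lemma kOr_mono : ∀ x x' y y', le3 x x' → le3 y y' → le3 (kOr x y) (kOr x' y') := by decide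
lemma kAnd_mono : ∀ x x' y y', le3 x x' → le3 y y' → le3 (kAnd x y) (kAnd x' y') := by decide
lemma kLess_mono : ∀ x x' y y', le3 x x' → le3 y y' → le3 (kLess x y) (kLess x' y') := by decide

lemma step_mono {V : Type} (G : GCircuit V) (s t : V → Option Bool) (h : FlatLe s t) :
    FlatLe (step G s) (step G t) := by
  intro z b hz
  have hl : ∀ v, le3 (s v) (t v) := fun v c hc => h v c hc
  unfold step at hz ⊢
  rcases hg : G.gate z with _ | g
  · rw [hg] at hz; simp at hz
  · rw [hg] at hz
    cases g with
    | const α => exact hz
    | scale α a =>
      simp only at hz ⊢
      split_ifs at hz ⊢ with h1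
      · exact hz
      · exact h a b hz
    | copy a => exact hz
    | add a b => exact hz
    | sub a b => exact hz
    | less a c => exact kLess_mono _ _ _ _ (hl a) (hl c) b hz
    | neg a => exact kNot_mono _ _ (hl a) b hz
    | disj a c => exact kOr_mono _ _ _ _ (hl a) (hl c) b hz
    | conj a c => exact kAnd_mono _ _ _ _ (hl a) (hl c) b hz


lemma val_none : ((val none : ℚ) : ℝ) = 1 / 2 := by simp [val]
lemma val_lo : ((val (some false) : ℚ) : ℝ) = 1 / 4 := by simp [val]
lemma val_hi : ((val (some true) : ℚ) : ℝ) = 3 / 4 := by simp [val]

/-- For every generalized circuit the explicit assignment `kleene G`, which takes values in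
`{1/4, 1/2, 3/4}` and is computed by `card V` rounds of a local three-valued update rule,
`ε`-satisfies every gate, simultaneously for all `ε ≥ 1/4`. -/
theorem result {V : Type} [Fintype V] (G : GCircuit V) :
    (∀ v, kleene G v = 1 / 4 ∨ kleene G v = 1 / 2 ∨ kleene G v = 3 / 4) ∧
    ∀ ε : ℝ, 1 / 4 ≤ ε → ∀ z g, G.gate z = some g →
      g.Sat ε (fun v => ((kleene G v : ℚ) : ℝ)) z := by
  refine ⟨?_, ?_⟩
  · intro v
    unfold kleene
    rcases (step G)^[Fintype.card V] (fun _ => none) v with _ | _ | _ <;> simp [val]
  · intro ε hε z g hg
    have hfix := iterate_fixed (step G) (step_mono G)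
    unfold kleene
    set s := (step G)^[Fintype.card V] (fun _ => none) with hs
    have hz : s z = step G s z := (congrFun hfix z).symm
    unfold step at hz
    rw [hg] at hz
    cases g with
    | const α =>
      obtain ⟨h0, h1⟩ := G.const_param z α hg
      have h0' : (0 : ℝ) ≤ α := by exact_mod_cast h0
      have h1' : (α : ℝ) ≤ 1 := by exact_mod_cast h1
      simp only [Gate.Sat] at hz ⊢
      rw [hz]
      split_ifs with c1 c2
      · have c1' : (α : ℝ) < 1 / 4 := by
          have := (Rat.cast_lt (K := ℝ)).mpr c1; push_cast at this; exact this
        rw [val_lo, abs_le]; constructor <;> linarith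
      · have c2' : (3 / 4 : ℝ) < α := by
          have := (Rat.cast_lt (K := ℝ)).mpr c2; push_cast at this; exact this
        rw [val_hi, abs_le]; constructor <;> linarith
      · have c1' : (1 / 4 : ℝ) ≤ α := by
          have := (Rat.cast_le (K := ℝ)).mpr (not_lt.mp c1); push_cast at this; exact this
        have c2' : (α : ℝ) ≤ 3 / 4 := by
          have := (Rat.cast_le (K := ℝ)).mpr (not_lt.mp c2); push_cast at this; exact this
        rw [val_none, abs_le]; constructor <;> linarith
    | scale α a =>
      obtain ⟨h0, h1⟩ := G.scale_param z α a hg
      have h0' : (0 : ℝ) ≤ α := by exact_mod_cast h0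
      have h1' : (α : ℝ) ≤ 1 := by exact_mod_cast h1
      simp only [Gate.Sat] at hz ⊢
      rw [hz]
      split_ifs with c1
      · have c1' : (α : ℝ) ≤ 2 / 3 := by
          have := (Rat.cast_le (K := ℝ)).mpr c1; push_cast at this; exact this
        rcases s a with _ | _ | _
        · rw [val_lo, val_none, abs_le]; constructor <;> linarith
        · rw [val_lo, abs_le]; constructor <;> linarith
        · rw [val_lo, val_hi, abs_le]; constructor <;> linarith
      · have c1' : (2 / 3 : ℝ) < α := by
          have := (Rat.cast_lt (K := ℝ)).mpr (not_le.mp c1); push_cast at this; exact this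
        rcases s a with _ | _ | _
        · rw [val_none, abs_le]; constructor <;> linarith
        · rw [val_lo, abs_le]; constructor <;> linarith
        · rw [val_hi, abs_le]; constructor <;> linarith
    | copy a =>
      simp only [Gate.Sat] at hz ⊢
      rw [hz]
      rcases s a with _ | _ | _ <;> simp only [val_none, val_lo, val_hi] <;> rw [abs_le] <;>
        constructor <;> linarith
    | add a b =>
      simp only [Gate.Sat] at hz ⊢
      rw [hz]
      rcases s a with _ | _ | _ <;> rcases s b with _ | _ | _ <;>
        simp only [val_none, val_lo, val_hi] <;> norm_num <;> linarith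
    | sub a b =>
      simp only [Gate.Sat] at hz ⊢
      rw [hz]
      rcases s a with _ | _ | _ <;> rcases s b with _ | _ | _ <;>
        simp only [val_none, val_lo, val_hi] <;> norm_num <;> linarith
    | less a b =>
      simp only [Gate.Sat] at hz ⊢
      rw [hz]
      rcases s a with _ | _ | _ <;> rcases s b with _ | _ | _ <;>
        simp only [kLess, val_none, val_lo, val_hi] <;>
        constructor <;> intro h <;> linarith
    | neg a =>
      simp only [Gate.Sat] at hz ⊢
      rw [hz]
      rcases s a with _ | _ | _ <;>
        simp only [kNot, Bool.not_false, Bool.not_true, val_none, val_lo, val_hi] <;>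
        constructor <;> intro h <;> linarith
    | disj a b =>
      simp only [Gate.Sat] at hz ⊢
      rw [hz]
      rcases s a with _ | _ | _ <;> rcases s b with _ | _ | _ <;>
        simp only [kOr, val_none, val_lo, val_hi] <;>
        refine ⟨fun h => ?_, fun h => ?_⟩ <;>
        first
          | linarith
          | (rcases h with h | h <;> linarith)
    | conj a b =>
      simp only [Gate.Sat] at hz ⊢
      rw [hz]
      rcases s a with _ | _ | _ <;> rcases s b with _ | _ | _ <;>
        simp only [kAnd, val_none, val_lo, val_hi] <;>
        refine ⟨fun h => ?_, fun h => ?_⟩ <;>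
        first
          | linarith
          | (rcases h with h | h <;> linarith)

end Vale.Agent.Results.P330.QuarterEasy
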