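import Mathlib
import Vale.Agent.Lib.P330.Circuit
import Vale.Agent.Results.P330.HalfEasy
import Vale.Agent.Results.P330.QuarterEasy

/-!
# P330: the two trivial ranges of the parameters, in one statement

Conjunction of `QuarterEasy.result` (every `ε ≥ 1/4` is easy, no gate violated) and
`HalfEasy.result` (every `δ ≥ 1/2` is easy, for every `ε ≥ 0`).
-/

namespace Vale.Agent.Results.P330.A_Combined

open Vale.Agent.Lib.P330

theorem result {V : Type} [Fintype V] (G : GCircuit V) :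
    ((∀ v, QuarterEasy.kleene G v = 1 / 4 ∨ QuarterEasy.kleene G v = 1 / 2 ∨
        QuarterEasy.kleene G v = 3 / 4) ∧
      ∀ ε : ℝ, 1 / 4 ≤ ε → ∀ z g, G.gate z = some g →
        g.Sat ε (fun v => ((QuarterEasy.kleene G v : ℚ) : ℝ)) z) ∧
    ((∀ v, 0 ≤ HalfEasy.chainAsg G v ∧ HalfEasy.chainAsg G v ≤ 1) ∧
      (∀ ε : ℝ, 0 ≤ ε → ∀ z g, G.gate z = some g →
        g.Sat ε (fun _ => (0 : ℝ)) z ∨
          g.Sat ε (fun v => ((HalfEasy.chainAsg G v : ℚ) : ℝ)) z) ∧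
      ∃ x : V → ℚ, (x = (fun _ => 0) ∨ x = HalfEasy.chainAsg G) ∧ (∀ v, 0 ≤ x v ∧ x v ≤ 1) ∧
        ∀ ε : ℝ, 0 ≤ ε →
          HalfEasy.numGates G ≤ 2 * HalfEasy.numSat G ε (fun v => ((x v : ℚ) : ℝ)) ∧
          ∀ δ : ℝ, 1 / 2 ≤ δ →
            (1 - δ) * (HalfEasy.numGates G : ℝ) ≤
              (HalfEasy.numSat G ε (fun v => ((x v : ℚ) : ℝ)) : ℝ)) :=
  ⟨QuarterEasy.result G, HalfEasy.result G⟩

end Vale.Agent.Results.P330.A_Combined
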